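import Vale.Agent.P224.S9.Piv.Dn

/-!
Column function z 0 6 1 4 (m = 9): kernel-checked polynomial approximant on `(0, 1)`.
-/

namespace Vale.Agent.P224.S9.K23

open Vale.Agent.P224.SP Vale.Agent.P224.S9

/-- coefficient lists over `DnL` -/
def r : Q4 := ⟨
  [0, 0, 0, 1511094875295600, -2830304687061600, -4075696068469200, 9861926828443200,
  2890448904294000, -12910803913677600, 740802773314800, 7838759341728000, -1428989243698800,
  -2259824352458400, 383800479930000, 318759458068800, -19573658218800, -18491818514400,
  -1890963975600, -20856528000, 2901528000],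
  [0, 0, 0, -2590448357649600, 1726965571766400, 9880031747854800, -5982605224495200,
  -14659167995362800, 7650149598604800, 10649717252143200, -4318483550875200,
  -3937505528224800, 976121729452800, 704832318262800, -46158508821600, -47229067191600,
  -5989615632000, -230369832000],
  [0, 0, 0, 1295224178824800, -1439137976472000, -4100518720985400, 4502830505670000,
  4849141588691400, -5103242461900800, -2719567996966800, 2504955840458400, 807609798702000,
  -492700687718400, -143634885471000, 26025375826800, 11701149705000, 1269404136000,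
  44887500000],
  []⟩

/-- reduced coefficient lists -/
def N : Q4 := ⟨
  [0, 0, 0, 2741841900, -3307618800, -6046083000, 7845724800, 3916087200, -5952409200,
  -601015000, 1541679200, -14669100, -127376000, 3838000],
  [0, 0, 0, -4700300400, 0, 11834075700, 0, -9871972200, 0, 3042918900, 0, -304722000],
  [0, 0, 0, 2350150200, -1044511200, -5090133150, 1939901400, 3459557700, -1002526200,
  -807169750, 135356000, 59375000],
  []⟩

/-- approximant (times `DD`) -/
def B : List ℤ :=
  [704, -277620, 18577113, 2566658735414, -6268040411408, -321036085358, 11372343010442,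
  -9071075784766, 5865536019276, -13593128567247, 15577417247731, -7423472966251,
  1272830521957, 42565461183, -20615481170]

/-- error (times `DD`) -/
def E : ℤ := 715

/-- test list -/
def n0 : List ℤ :=
  [-124711488, 48930127164, -3192645447819, 150449871854127880260, -181842579818346965751,
  -330939319085656388280, 431019840415532133654, 213166895987221391880, -327446467229445978942,
  -31141685884811644233, 85867820199515889189, -2603310450102617508, -7365355519793076342,
  1067783932757791638, -236906825334664491, -236402466540921, 3651970642821990]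

/-- test list -/
def n1 : List ℤ :=
  [0, 0, 0, -258693521625789235200, 0, 651319800330033561600, 0, -543330220725868953600, 0,
  167475126964794163200, 0, -16771184943169536000]

/-- test list -/
def n2 : List ℤ :=
  [0, 0, 0, 129346760812894617600, -57487449250175385600, -280149002841961267200,
  106767628037731123200, 190405950368749977600, -55176693217335705600, -44424731912306688000,
  7449677112803328000, 3267860889600000000]

/-- test list -/
def n3 : List ℤ :=
  []

/-- weight list -/
def wt : List ℤ :=
  [126660105, 126660105, -126660105, -126660105]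

/-- factor -/
def fac : List ℤ := [551124, -367416, -714420, 347760, 162540, 19656, 756]

lemma e0 : eqL n0 (addL (smulL DD N.n0) (smulL (-1) (mulL B (dnL 177147 0 0 2 0 0)))) = true := by
  decide +kernel

lemma e1 : eqL n1 (smulL DD N.n1) = true := by
  decide +kernel

lemma e2 : eqL n2 (smulL DD N.n2) = true := by
  decide +kernel

lemma e3 : eqL n3 (smulL DD N.n3) = true := by
  decide +kernel

lemma e4 : eqL wt (smulL E (mulL (powZ 1) (dnL 177147 0 0 2 0 0))) = true := by
  decide +kernel

lemma hv : vanT n1 n2 n3 [] [] 0 0 = true := by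
  decide +kernel

lemma h0 : chkL05 n0 n1 n2 n3 wt 0 = true := by
  decide +kernel

lemma h6 : chkLp5 n0 n1 n2 n3 wt 0 6 1 2 128 = true := by
  decide +kernel

lemma h5 : chkLp5 n0 n1 n2 n3 wt 0 5 1 2 64 = true := by
  decide +kernel

lemma h4 : chkLp5 n0 n1 n2 n3 wt 0 4 1 2 32 = true := by
  decide +kernel

lemma h3 : chkLp5 n0 n1 n2 n3 wt 0 3 1 2 16 = true := by
  decide +kernel

lemma h2 : chkLp5 n0 n1 n2 n3 wt 0 2 1 2 8 = true := by
  decide +kernel

lemma r1 : chkN 2 1 4 4 (addL (rW5 n1 n2 n3 wt 0) (rM n0 n1 n2 n3 [] [] 0)) = true := by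
  decide +kernel

lemma r2 : chkN 2 1 4 4 (addL (rW5 n1 n2 n3 wt 0)
      (smulL (-1) (rM n0 n1 n2 n3 [] [] 0))) = true := by
  decide +kernel

lemma d0 : eqL r.n0 (mulL fac N.n0) = true := by
  decide +kernel

lemma d1 : eqL r.n1 (mulL fac N.n1) = true := by
  decide +kernel

lemma d2 : eqL r.n2 (mulL fac N.n2) = true := by
  decide +kernel

lemma d3 : eqL r.n3 (mulL fac N.n3) = true := by
  decide +kernel

lemma dd : eqL DnL (mulL fac (dnL 177147 0 0 2 0 0)) = true := by
  decide +kernel

theorem eq {T : ℝ} (h0 : 0 < T) (h1 : T < 1) :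
    G4 r T / ev DnL T = qf N 177147 0 0 2 0 0 T :=
  G4_div_eq (by norm_num) d0 d1 d2 d3 dd h0 h1

theorem bd {T : ℝ} (hT0 : 0 < T) (hT1 : T < 1) :
    |(DD : ℝ) * (G4 r T / ev DnL T) - ev B T| ≤ E * (1 - T) ^ 1 := by
  rw [eq hT0 hT1]
  exact qf_bd (by norm_num) e0 e1 e2 e3 e4 (q := 2) (by norm_num) (by norm_num) hv h0
    h6 h5 h4 h3 h2 r1 r2 hT0 hT1

end Vale.Agent.P224.S9.K23
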