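import Vale.Agent.P224.S9.Piv.Dn

/-!
Column function z 0 6 1 5 (m = 9): kernel-checked polynomial approximant on `(0, 1)`.
-/

namespace Vale.Agent.P224.S9.K24

open Vale.Agent.P224.SP Vale.Agent.P224.S9

/-- coefficient lists over `DnL` -/
def r : Q4 := ⟨
  [0, 0, 0, 0, 604437950118240, -527683924706400, -2157962352094080, 1786808379283200,
  2942987941000800, -2221333624470240, -1925012515144320, 1210491221546880, 638895524067360,
  -265034216916000, -111514024944000, 15989758283520, 8160294996000, 763567590240, 7182000000,
  -1160611200],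
  [0, 0, 0, 0, -1036179343059840, -345393114353280, 3606619584788640, 1213577494990560,
  -4650089703154560, -1590029863712640, 2669857037144640, 942463616794560, -632538594495360,
  -242089902714240, 39843024590880, 21379621062240, 2487994185600, 92147932800],
  [0, 0, 0, 0, 518089671529920, -57565519058880, -1697773007453040, 103359194814960,
  2043015830291520, 1718845531200, -1086108353255520, -84126017072160, 238917902408640,
  41837627321280, -15616326867120, -5206176536400, -525716654400, -17955000000],
  []⟩

/-- reduced coefficient lists -/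
def N : Q4 := ⟨
  [0, 0, 0, 0, 1096736760, -226310760, -2644743960, 493545960, 2059980840, -320982840,
  -561388840, 55282840, 49415200, -1535200],
  [0, 0, 0, 0, -1880120160, -1880120160, 2853510120, 2853510120, -1095278760, -1095278760,
  121888800, 121888800],
  [0, 0, 0, 0, 940060080, 522255600, -1513797660, -737837100, 645985980, 244975500, -77892400,
  -23750000],
  []⟩

/-- approximant (times `DD`) -/
def B : List ℤ :=
  [-107, 42054, -2825961, 76829069, 1025742372733, -1473117818233, -1647447905271,
  3075320262120, -1020042858084, 2229916745333, -4472098878207, 3027151969465, -830779039784,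
  91337396473, -6056291600]

/-- error (times `DD`) -/
def E : ℤ := 109

/-- test list -/
def n0 : List ℤ :=
  [18954729, -7411830480, 485729988120, -12616267799547, 60180087809113963110,
  -12558083580302297274, -144928461081773636892, 27463468855470597765, 112759489549078698825,
  -18244555234849633815, -30714656160162366045, 3695801839105919472, 2586583967203656567,
  -342584817748083990, 115882576902676386, -14034437996872131, 1072853888065200]

/-- test list -/
def n1 : List ℤ :=
  [0, 0, 0, 0, -103477408650315694080, -103477408650315694080, 157050511481697730560,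
  157050511481697730560, -60281576808649850880, -60281576808649850880, 6708473977267814400,
  6708473977267814400]

/-- test list -/
def n2 : List ℤ :=
  [0, 0, 0, 0, 51738704325157847040, 28743724625087692800, -83315876511696814080,
  -40608825296604364800, 35553554850895626240, 13482877563961344000, -4287015200961331200,
  -1307144355840000000]

/-- test list -/
def n3 : List ℤ :=
  []

/-- weight list -/
def wt : List ℤ :=
  [19309023, 19309023, -19309023, -19309023]

/-- factor -/
def fac : List ℤ := [551124, -367416, -714420, 347760, 162540, 19656, 756]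

lemma e0 : eqL n0 (addL (smulL DD N.n0) (smulL (-1) (mulL B (dnL 177147 0 0 2 0 0)))) = true := by
  decide +kernel

lemma e1 : eqL n1 (smulL DD N.n1) = true := by
  decide +kernel

lemma e2 : eqL n2 (smulL DD N.n2) = true := by
  decide +kernel

lemma e3 : eqL n3 (smulL DD N.n3) = true := by
  decide +kernel

lemma e4 : eqL wt (smulL E (mulL (powZ 1) (dnL 177147 0 0 2 0 0))) = true := by
  decide +kernel

lemma hv : vanT n1 n2 n3 [] [] 0 0 = true := by
  decide +kernel

lemma h0 : chkL05 n0 n1 n2 n3 wt 0 = true := by
  decide +kernel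

lemma h6 : chkLp5 n0 n1 n2 n3 wt 0 6 1 2 128 = true := by
  decide +kernel

lemma h5 : chkLp5 n0 n1 n2 n3 wt 0 5 1 2 64 = true := by
  decide +kernel

lemma h4 : chkLp5 n0 n1 n2 n3 wt 0 4 1 2 32 = true := by
  decide +kernel

lemma h3 : chkLp5 n0 n1 n2 n3 wt 0 3 1 2 16 = true := by
  decide +kernel

lemma h2 : chkLp5 n0 n1 n2 n3 wt 0 2 1 2 8 = true := by
  decide +kernel

lemma r1 : chkN 2 1 4 4 (addL (rW5 n1 n2 n3 wt 0) (rM n0 n1 n2 n3 [] [] 0)) = true := by
  decide +kernel

lemma r2 : chkN 2 1 4 4 (addL (rW5 n1 n2 n3 wt 0)
      (smulL (-1) (rM n0 n1 n2 n3 [] [] 0))) = true := by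
  decide +kernel

lemma d0 : eqL r.n0 (mulL fac N.n0) = true := by
  decide +kernel

lemma d1 : eqL r.n1 (mulL fac N.n1) = true := by
  decide +kernel

lemma d2 : eqL r.n2 (mulL fac N.n2) = true := by
  decide +kernel

lemma d3 : eqL r.n3 (mulL fac N.n3) = true := by
  decide +kernel

lemma dd : eqL DnL (mulL fac (dnL 177147 0 0 2 0 0)) = true := by
  decide +kernel

theorem eq {T : ℝ} (h0 : 0 < T) (h1 : T < 1) :
    G4 r T / ev DnL T = qf N 177147 0 0 2 0 0 T :=
  G4_div_eq (by norm_num) d0 d1 d2 d3 dd h0 h1

theorem bd {T : ℝ} (hT0 : 0 < T) (hT1 : T < 1) :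
    |(DD : ℝ) * (G4 r T / ev DnL T) - ev B T| ≤ E * (1 - T) ^ 1 := by
  rw [eq hT0 hT1]
  exact qf_bd (by norm_num) e0 e1 e2 e3 e4 (q := 2) (by norm_num) (by norm_num) hv h0
    h6 h5 h4 h3 h2 r1 r2 hT0 hT1

end Vale.Agent.P224.S9.K24
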