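import Vale.Agent.P224.S9.Piv.Dn

/-!
Column function z 0 6 1 6 (m = 9): kernel-checked polynomial approximant on `(0, 1)`.
-/

namespace Vale.Agent.P224.S9.K25

open Vale.Agent.P224.SP Vale.Agent.P224.S9

/-- coefficient lists over `DnL` -/
def r : Q4 := ⟨
  [0, 0, 0, 0, 0, 100739658353040, 12792337568640, -346868054447040, -49066657899840,
  441431332266960, 71209061521920, -249626357668800, -47877820744320, 58604766600240,
  14432397114240, -4153273709760, -1488313995840, -128264829840, -1003564800, 193435200],
  [0, 0, 0, 0, 0, -172696557176640, -230262076235520, 370841187895920, 573104103727680,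
  -201910846798080, -466915824083520, -21939651226080, 135137618239680, 29714519157120,
  -10633797961920, -3993293863440, -430023686400, -15357988800],
  [0, 0, 0, 0, 0, 86348278588320, 76754025411840, -206208142497000, -188981610027840,
  151521028354080, 151807502609280, -29210556266640, -43231559112000, -3411908710560,
  3561029176320, 958308031800, 90611942400, 2992500000],
  []⟩

/-- reduced coefficient lists -/
def N : Q4 := ⟨
  [0, 0, 0, 0, 0, 548368380, 435213000, -887158980, -640386000, 389604420, 229113000,
  -51581420, -23940000, 767600],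
  [0, 0, 0, 0, 0, -940060080, -1880120160, -453365100, 973389960, 425750580, -121888800,
  -60944400],
  [0, 0, 0, 0, 0, 470030040, 731157840, -25740990, -394659540, -71666550, 50821200, 11875000],
  []⟩

/-- approximant (times `DD`) -/
def B : List ℤ :=
  [5, -1890, 128702, -3579801, 53959007, 170636457644, -72824971288, -355191740090,
  178292289453, -32225985794, 396120915178, -406080783756, 138274172846, -18701362928,
  1650502712]

/-- error (times `DD`) -/
def E : ℤ := 6

/-- test list -/
def n0 : List ℤ :=
  [-2657205, 999109080, -66391329807, 1766662407567, -24939520112187, 30090172197051037503,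
  23810410934403800913, -48651667128788933538, -34923867821898554385, 21459300466392264258,
  12338828420753339037, -3027016108721906406, -1169985015061137792, 121024425013738272,
  -54484367471580582, 8184381392283264, -877144811767992]

/-- test list -/
def n1 : List ℤ :=
  [0, 0, 0, 0, 0, -51738704325157847040, -103477408650315694080, -24952152909466828800,
  53573102831382036480, 23432314427057111040, -6708473977267814400, -3354236988633907200]

/-- test list -/
def n2 : List ℤ :=
  [0, 0, 0, 0, 0, 25869352162578923520, 40241214475122769920, -1416723780725637120,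
  -21721136429027819520, -3944359003580006400, 2797079778400665600, 653572177920000000]

/-- test list -/
def n3 : List ℤ :=
  []

/-- weight list -/
def wt : List ℤ :=
  [3188646, 3188646, -3188646, -3188646]

/-- factor -/
def fac : List ℤ := [183708, -122472, -238140, 115920, 54180, 6552, 252]

lemma e0 : eqL n0 (addL (smulL DD N.n0) (smulL (-1) (mulL B (dnL 531441 0 0 2 0 0)))) = true := by
  decide +kernel

lemma e1 : eqL n1 (smulL DD N.n1) = true := by
  decide +kernel

lemma e2 : eqL n2 (smulL DD N.n2) = true := by
  decide +kernel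

lemma e3 : eqL n3 (smulL DD N.n3) = true := by
  decide +kernel

lemma e4 : eqL wt (smulL E (mulL (powZ 1) (dnL 531441 0 0 2 0 0))) = true := by
  decide +kernel

lemma hv : vanT n1 n2 n3 [] [] 0 0 = true := by
  decide +kernel

lemma h0 : chkL05 n0 n1 n2 n3 wt 0 = true := by
  decide +kernel

lemma h6 : chkLp5 n0 n1 n2 n3 wt 0 6 1 2 128 = true := by
  decide +kernel

lemma h5 : chkLp5 n0 n1 n2 n3 wt 0 5 1 2 64 = true := by
  decide +kernel

lemma h4 : chkLp5 n0 n1 n2 n3 wt 0 4 1 2 32 = true := by
  decide +kernel

lemma h3 : chkLp5 n0 n1 n2 n3 wt 0 3 1 2 16 = true := by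
  decide +kernel

lemma h2 : chkLp5 n0 n1 n2 n3 wt 0 2 1 2 8 = true := by
  decide +kernel

lemma r1 : chkN 1 1 4 4 (addL (rW5 n1 n2 n3 wt 0) (rM n0 n1 n2 n3 [] [] 0)) = true := by
  decide +kernel

lemma r2 : chkN 1 1 4 4 (addL (rW5 n1 n2 n3 wt 0)
      (smulL (-1) (rM n0 n1 n2 n3 [] [] 0))) = true := by
  decide +kernel

lemma d0 : eqL r.n0 (mulL fac N.n0) = true := by
  decide +kernel

lemma d1 : eqL r.n1 (mulL fac N.n1) = true := by
  decide +kernel

lemma d2 : eqL r.n2 (mulL fac N.n2) = true := by
  decide +kernel

lemma d3 : eqL r.n3 (mulL fac N.n3) = true := by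
  decide +kernel

lemma dd : eqL DnL (mulL fac (dnL 531441 0 0 2 0 0)) = true := by
  decide +kernel

theorem eq {T : ℝ} (h0 : 0 < T) (h1 : T < 1) :
    G4 r T / ev DnL T = qf N 531441 0 0 2 0 0 T :=
  G4_div_eq (by norm_num) d0 d1 d2 d3 dd h0 h1

theorem bd {T : ℝ} (hT0 : 0 < T) (hT1 : T < 1) :
    |(DD : ℝ) * (G4 r T / ev DnL T) - ev B T| ≤ E * (1 - T) ^ 1 := by
  rw [eq hT0 hT1]
  exact qf_bd (by norm_num) e0 e1 e2 e3 e4 (q := 1) (by norm_num) (by norm_num) hv h0
    h6 h5 h4 h3 h2 r1 r2 hT0 hT1

end Vale.Agent.P224.S9.K25
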