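import Vale.Agent.P224.S9.Piv.Dn

/-!
Column function z 0 7 3 0 (m = 9): kernel-checked polynomial approximant on `(0, 1)`.
-/

namespace Vale.Agent.P224.S9.K29

open Vale.Agent.P224.SP Vale.Agent.P224.S9

/-- coefficient lists over `DnL` -/
def r : Q4 := ⟨
  [0, -2474899479360000, 810681359040000, 8139351951360000, -2496018551040000,
  -9665749880640000, 2650441590720000, 4877027366400000, -1048986731520000, -939640282560000,
  77305919040000, 63835107840000, 6586594560000, 75216960000, -10180800000],
  [0, 4242684821760000, 3728419994880000, -10781704946880000, -9147379792320000,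
  9072647377920000, 7275307092480000, -2750064670080000, -2021346472320000, 195582885120000,
  164190862080000, 20854532160000, 808315200000],
  [0, -2121342410880000, -921391148160000, 5472991994400000, 2144555753760000,
  -4671591563520000, -1582455813120000, 1421669309760000, 400136385600000, -97304780160000,
  -40687678080000, -4422549600000, -157500000000],
  []⟩

/-- reduced coefficient lists -/
def N : Q4 := ⟨
  [0, -13471920000, -4568400000, 23796720000, 4856400000, -11673680000, -247600000, 1348880000,
  -40400000],
  [0, 23094720000, 35691840000, -4957200000, -21403440000, -641520000, 3207600000],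
  [0, -11547360000, -12713760000, 6347160000, 6710760000, -1299800000, -625000000],
  []⟩

/-- approximant (times `DD`) -/
def B : List ℤ :=
  [-1845, -4204542120140, 3779804422798, 6621541670953, -6150521190270, 473223140473,
  -3744047560479, 2269214887960, 6316256695529, -11401732972560, 10172362729278,
  -5965054091318, 2320941674986, -546531263358, 59083977993]

/-- error (times `DD`) -/
def E : ℤ := 1873

/-- test list -/
def n0 : List ℤ :=
  [980508645, -739228447206138620970, -248973843544356239793, 1304413736436355364631,
  261506856517479420606, -639725167437436326726, -8871924741514223877, 76761231643770018525,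
  -6002406399840007770, -1860041005659345978, 3355968349601661033, -1582598558406070998,
  -299305563218205948, 993636303081898464, -683944970784334983, 227649824433083052,
  -31399648348577913]

/-- test list -/
def n1 : List ℤ :=
  [0, 1271079279903375360000, 1964395250759761920000, -272832673716633600000,
  -1177995191223582720000, -35307757775093760000, 176538788875468800000]

/-- test list -/
def n2 : List ℤ :=
  [0, -635539639951687680000, -699735563179130880000, 349332815562670080000,
  369344507679866880000, -71537946682982400000, -34398535680000000000]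

/-- test list -/
def n3 : List ℤ :=
  []

/-- weight list -/
def wt : List ℤ :=
  [995388993, 0, -1990777986, 0, 995388993]

/-- factor -/
def fac : List ℤ := [183708, -122472, -238140, 115920, 54180, 6552, 252]

lemma e0 : eqL n0 (addL (smulL DD N.n0) (smulL (-1) (mulL B (dnL 531441 0 0 2 0 0)))) = true := by
  decide +kernel

lemma e1 : eqL n1 (smulL DD N.n1) = true := by
  decide +kernel

lemma e2 : eqL n2 (smulL DD N.n2) = true := by
  decide +kernel

lemma e3 : eqL n3 (smulL DD N.n3) = true := by
  decide +kernel

lemma e4 : eqL wt (smulL E (mulL (powZ 2) (dnL 531441 0 0 2 0 0))) = true := by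
  decide +kernel

lemma hv : vanT n1 n2 n3 [] [] 0 0 = true := by
  decide +kernel

lemma h0 : chkL05 n0 n1 n2 n3 wt 0 = true := by
  decide +kernel

lemma h6 : chkLp5 n0 n1 n2 n3 wt 0 6 1 2 128 = true := by
  decide +kernel

lemma h5 : chkLp5 n0 n1 n2 n3 wt 0 5 1 2 64 = true := by
  decide +kernel

lemma h4 : chkLp5 n0 n1 n2 n3 wt 0 4 1 2 32 = true := by
  decide +kernel

lemma h3 : chkLp5 n0 n1 n2 n3 wt 0 3 1 2 16 = true := by
  decide +kernel

lemma h2 : chkLp5 n0 n1 n2 n3 wt 0 2 1 2 8 = true := by
  decide +kernel

lemma r1 : chkN 2 1 4 4 (addL (rW5 n1 n2 n3 wt 0) (rM n0 n1 n2 n3 [] [] 0)) = true := by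
  decide +kernel

lemma r2 : chkN 2 1 4 4 (addL (rW5 n1 n2 n3 wt 0)
      (smulL (-1) (rM n0 n1 n2 n3 [] [] 0))) = true := by
  decide +kernel

lemma d0 : eqL r.n0 (mulL fac N.n0) = true := by
  decide +kernel

lemma d1 : eqL r.n1 (mulL fac N.n1) = true := by
  decide +kernel

lemma d2 : eqL r.n2 (mulL fac N.n2) = true := by
  decide +kernel

lemma d3 : eqL r.n3 (mulL fac N.n3) = true := by
  decide +kernel

lemma dd : eqL DnL (mulL fac (dnL 531441 0 0 2 0 0)) = true := by
  decide +kernel

theorem eq {T : ℝ} (h0 : 0 < T) (h1 : T < 1) :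
    G4 r T / ev DnL T = qf N 531441 0 0 2 0 0 T :=
  G4_div_eq (by norm_num) d0 d1 d2 d3 dd h0 h1

theorem bd {T : ℝ} (hT0 : 0 < T) (hT1 : T < 1) :
    |(DD : ℝ) * (G4 r T / ev DnL T) - ev B T| ≤ E * (1 - T) ^ 2 := by
  rw [eq hT0 hT1]
  exact qf_bd (by norm_num) e0 e1 e2 e3 e4 (q := 2) (by norm_num) (by norm_num) hv h0
    h6 h5 h4 h3 h2 r1 r2 hT0 hT1

end Vale.Agent.P224.S9.K29
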