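import Vale.Agent.P224.S9.Piv.Dn

/-!
Column function z 0 7 3 1 (m = 9): kernel-checked polynomial approximant on `(0, 1)`.
-/

namespace Vale.Agent.P224.S9.K30

open Vale.Agent.P224.SP Vale.Agent.P224.S9

/-- coefficient lists over `DnL` -/
def r : Q4 := ⟨
  [0, 0, -1124954308800000, -142851340800000, 3634773004800000, 517615660800000,
  -4158242827200000, -685364198400000, 1905301440000000, 389233958400000, -250184692800000,
  -78581260800000, -6702796800000, -52819200000, 10180800000],
  [0, 0, 1928493100800000, 2571324134400000, -3731991278400000, -5854259577600000,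
  1462903545600000, 3971913926400000, 555386025600000, -666345657600000, -213983078400000,
  -22632825600000, -808315200000],
  [0, 0, -964246550400000, -857108044800000, 2098129068000000, 1928493100800000,
  -1246862937600000, -1286053977600000, 61643332800000, 209899872000000, 51179587200000,
  4769049600000, 157500000000],
  []⟩

/-- reduced coefficient lists -/
def N : Q4 := ⟨
  [0, 0, -6123600000, -4860000000, 8607600000, 6120000000, -2524400000, -1260000000, 40400000],
  [0, 0, 10497600000, 20995200000, 7290000000, -6415200000, -3207600000],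
  [0, 0, -5248800000, -8164800000, -826200000, 2674800000, 625000000],
  []⟩

/-- approximant (times `DD`) -/
def B : List ℤ :=
  [198, -77950, -1911150597527, 849263116255, 3397479120278, -1264705273461, -289533477864,
  -2088774533264, 741568651944, 1978465702418, -2622817715697, 1822073025908, -791297508762,
  203066095158, -23636527634]

/-- error (times `DD`) -/
def E : ℤ := 201

/-- test list -/
def n0 : List ℤ :=
  [-105225318, 41215375314, -336012933076630027011, -265903019076619154691,
  472049574754678138899, 333440124971708392650, -139244518822630563972, -67257531346895215227,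
  4203412174871657568, -729577336541913522, -1103102699027490603, 767983636975160988,
  -122247812921431437, -235186080930464022, 217254061882601280, -82794808912181490,
  12561419882340594]

/-- test list -/
def n1 : List ℤ :=
  [0, 0, 577763309046988800000, 1155526618093977600000, 401224520171520000000,
  -353077577750937600000, -176538788875468800000]

/-- test list -/
def n2 : List ℤ :=
  [0, 0, -288881654523494400000, -449371462592102400000, -45472112286105600000,
  147214725178982400000, 34398535680000000000]

/-- test list -/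
def n3 : List ℤ :=
  []

/-- weight list -/
def wt : List ℤ :=
  [106819641, 106819641, -106819641, -106819641]

/-- factor -/
def fac : List ℤ := [183708, -122472, -238140, 115920, 54180, 6552, 252]

lemma e0 : eqL n0 (addL (smulL DD N.n0) (smulL (-1) (mulL B (dnL 531441 0 0 2 0 0)))) = true := by
  decide +kernel

lemma e1 : eqL n1 (smulL DD N.n1) = true := by
  decide +kernel

lemma e2 : eqL n2 (smulL DD N.n2) = true := by
  decide +kernel

lemma e3 : eqL n3 (smulL DD N.n3) = true := by
  decide +kernel

lemma e4 : eqL wt (smulL E (mulL (powZ 1) (dnL 531441 0 0 2 0 0))) = true := by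
  decide +kernel

lemma hv : vanT n1 n2 n3 [] [] 0 0 = true := by
  decide +kernel

lemma h0 : chkL05 n0 n1 n2 n3 wt 0 = true := by
  decide +kernel

lemma h6 : chkLp5 n0 n1 n2 n3 wt 0 6 1 2 128 = true := by
  decide +kernel

lemma h5 : chkLp5 n0 n1 n2 n3 wt 0 5 1 2 64 = true := by
  decide +kernel

lemma h4 : chkLp5 n0 n1 n2 n3 wt 0 4 1 2 32 = true := by
  decide +kernel

lemma h3 : chkLp5 n0 n1 n2 n3 wt 0 3 1 2 16 = true := by
  decide +kernel

lemma h2 : chkLp5 n0 n1 n2 n3 wt 0 2 1 2 8 = true := by
  decide +kernel

lemma r1 : chkN 2 1 4 4 (addL (rW5 n1 n2 n3 wt 0) (rM n0 n1 n2 n3 [] [] 0)) = true := by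
  decide +kernel

lemma r2 : chkN 2 1 4 4 (addL (rW5 n1 n2 n3 wt 0)
      (smulL (-1) (rM n0 n1 n2 n3 [] [] 0))) = true := by
  decide +kernel

lemma d0 : eqL r.n0 (mulL fac N.n0) = true := by
  decide +kernel

lemma d1 : eqL r.n1 (mulL fac N.n1) = true := by
  decide +kernel

lemma d2 : eqL r.n2 (mulL fac N.n2) = true := by
  decide +kernel

lemma d3 : eqL r.n3 (mulL fac N.n3) = true := by
  decide +kernel

lemma dd : eqL DnL (mulL fac (dnL 531441 0 0 2 0 0)) = true := by
  decide +kernel

theorem eq {T : ℝ} (h0 : 0 < T) (h1 : T < 1) :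
    G4 r T / ev DnL T = qf N 531441 0 0 2 0 0 T :=
  G4_div_eq (by norm_num) d0 d1 d2 d3 dd h0 h1

theorem bd {T : ℝ} (hT0 : 0 < T) (hT1 : T < 1) :
    |(DD : ℝ) * (G4 r T / ev DnL T) - ev B T| ≤ E * (1 - T) ^ 1 := by
  rw [eq hT0 hT1]
  exact qf_bd (by norm_num) e0 e1 e2 e3 e4 (q := 2) (by norm_num) (by norm_num) hv h0
    h6 h5 h4 h3 h2 r1 r2 hT0 hT1

end Vale.Agent.P224.S9.K30
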