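import Vale.Agent.P224.S9.Piv.Dn

/-!
Column function z 1 7 2 0 (m = 9): kernel-checked polynomial approximant on `(0, 1)`.
-/

namespace Vale.Agent.P224.S9.K35

open Vale.Agent.P224.SP Vale.Agent.P224.S9

/-- coefficient lists over `DnL` -/
def r : Q4 := ⟨
  [44998172352000, 61961769072000, -239494240944000, -215299897344000, 467578500480000,
  281912118768000, -416185702128000, -172517208192000, 162022819392000, 50683541328000,
  -18319447440000, -6735060864000, -601017984000, -5262768000, 916272000],
  [-77139724032000, -199277620416000, 194277823488000, 652189119120000, -101682378000000,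
  -758905096320000, -89149818240000, 356356778400000, 91861348320000, -48366642240000,
  -18094503168000, -1996538544000, -72748368000],
  [38569862016000, 82496649312000, -127851950016000, -259185901464000, 142281478584000,
  287349685056000, -50380698816000, -127223019504000, -6994277136000, 16141247136000,
  4361410368000, 421339464000, 14175000000],
  []⟩

/-- reduced coefficient lists -/
def N : Q4 := ⟨
  [244944000, 500580000, -652428000, -1112580000, 569660000, 727420000, -165812000, -115420000,
  3636000],
  [-419904000, -1364688000, -396576000, 1781676000, 1105164000, -416988000, -288684000],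
  [209952000, 589032000, -31104000, -800514000, -233098000, 209482000, 56250000],
  []⟩

/-- approximant (times `DD`) -/
def B : List ℤ :=
  [76446231968, 61581642665, -350291090911, -43493057343, 384250773690, -30451172442,
  91143652732, -394646523031, 215779306106, 68813282588, -152216414980, 108411850897,
  -44892464231, 10710160062, -1146177770]

/-- error (times `DD`) -/
def E : ℤ := 154

/-- test list -/
def n0 : List ℤ :=
  [13440517215799766112, 27436770051424897959, -35828030172447197667, -60871091443549483500,
  31380932156749167987, 39666376283532955605, -9346182083380092258, -6223406984620187031,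
  456468162696377784, -56186797298289129, -106920325846591182, 67603385422370475,
  -10477265028332103, -15590928459288177, 13083185596634757, -4473566452976202,
  609125860266570]

/-- test list -/
def n1 : List ℤ :=
  [-23110532361879552000, -75109230176108544000, -21826613897330688000, 98059272729919488000,
  60825637258002432000, -22950042553810944000, -15888490998792192000]

/-- test list -/
def n2 : List ℤ :=
  [11555266180939776000, 32418941229858816000, -1711891286065152000, -44058415026143232000,
  -12829167791898624000, 11529398482108416000, 3095868211200000000]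

/-- test list -/
def n3 : List ℤ :=
  []

/-- weight list -/
def wt : List ℤ :=
  [81841914, -81841914, -163683828, 163683828, 81841914, -81841914]

/-- factor -/
def fac : List ℤ := [183708, -122472, -238140, 115920, 54180, 6552, 252]

lemma e0 : eqL n0 (addL (smulL DD N.n0) (smulL (-1) (mulL B (dnL 531441 0 0 2 0 0)))) = true := by
  decide +kernel

lemma e1 : eqL n1 (smulL DD N.n1) = true := by
  decide +kernel

lemma e2 : eqL n2 (smulL DD N.n2) = true := by
  decide +kernel

lemma e3 : eqL n3 (smulL DD N.n3) = true := by
  decide +kernel

lemma e4 : eqL wt (smulL E (mulL (powZ 3) (dnL 531441 0 0 2 0 0))) = true := by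
  decide +kernel

lemma hv : vanT n1 n2 n3 [] [] 0 0 = true := by
  decide +kernel

lemma h0 : chkL05 n0 n1 n2 n3 wt 0 = true := by
  decide +kernel

lemma h6 : chkLp5 n0 n1 n2 n3 wt 0 6 1 2 128 = true := by
  decide +kernel

lemma h5 : chkLp5 n0 n1 n2 n3 wt 0 5 1 2 64 = true := by
  decide +kernel

lemma h4 : chkLp5 n0 n1 n2 n3 wt 0 4 1 2 32 = true := by
  decide +kernel

lemma h3 : chkLp5 n0 n1 n2 n3 wt 0 3 1 2 16 = true := by
  decide +kernel

lemma h2 : chkLp5 n0 n1 n2 n3 wt 0 2 1 2 8 = true := by
  decide +kernel

lemma r1 : chkN 2 1 4 4 (addL (rW5 n1 n2 n3 wt 0) (rM n0 n1 n2 n3 [] [] 0)) = true := by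
  decide +kernel

lemma r2 : chkN 2 1 4 4 (addL (rW5 n1 n2 n3 wt 0)
      (smulL (-1) (rM n0 n1 n2 n3 [] [] 0))) = true := by
  decide +kernel

lemma d0 : eqL r.n0 (mulL fac N.n0) = true := by
  decide +kernel

lemma d1 : eqL r.n1 (mulL fac N.n1) = true := by
  decide +kernel

lemma d2 : eqL r.n2 (mulL fac N.n2) = true := by
  decide +kernel

lemma d3 : eqL r.n3 (mulL fac N.n3) = true := by
  decide +kernel

lemma dd : eqL DnL (mulL fac (dnL 531441 0 0 2 0 0)) = true := by
  decide +kernel

theorem eq {T : ℝ} (h0 : 0 < T) (h1 : T < 1) :
    G4 r T / ev DnL T = qf N 531441 0 0 2 0 0 T :=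
  G4_div_eq (by norm_num) d0 d1 d2 d3 dd h0 h1

theorem bd {T : ℝ} (hT0 : 0 < T) (hT1 : T < 1) :
    |(DD : ℝ) * (G4 r T / ev DnL T) - ev B T| ≤ E * (1 - T) ^ 3 := by
  rw [eq hT0 hT1]
  exact qf_bd (by norm_num) e0 e1 e2 e3 e4 (q := 2) (by norm_num) (by norm_num) hv h0
    h6 h5 h4 h3 h2 r1 r2 hT0 hT1

end Vale.Agent.P224.S9.K35
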