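import Vale.Agent.P224.S9.Piv.Dn

/-!
Column function z 1 7 2 1 (m = 9): kernel-checked polynomial approximant on `(0, 1)`.
-/

namespace Vale.Agent.P224.S9.K36

open Vale.Agent.P224.SP Vale.Agent.P224.S9

/-- coefficient lists over `DnL` -/
def r : Q4 := ⟨
  [0, -56247715440000, 60354691488000, 190309730688000, -192205597248000, -238969081008000,
  215226359712000, 136386923904000, -94856388480000, -35863272144000, 11082018528000,
  4379735808000, 399526848000, 3678192000, -610848000],
  [0, 96424655040000, 12856620672000, -340879011984000, -68793502176000, 424400751936000,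
  110821483584000, -210545534304000, -66640444416000, 29281585536000, 11707343424000,
  1317553776000, 48498912000],
  [0, -48212327520000, 14999390784000, 156332936088000, -29463089040000, -178052732928000,
  10509077376000, 80245405296000, 6796393632000, -10035012960000, -2832322752000,
  -278267976000, -9450000000],
  []⟩

/-- reduced coefficient lists -/
def N : Q4 := ⟨
  [0, -306180000, 124416000, 721980000, -210456000, -493420000, 88464000, 77620000, -2424000],
  [0, 524880000, 419904000, -895212000, -758160000, 224532000, 192456000],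
  [0, -262440000, -93312000, 448578000, 183312000, -129238000, -37500000],
  []⟩

/-- approximant (times `DD`) -/
def B : List ℤ :=
  [-63, -95557768109, 157138204806, 118840263910, -266474709150, 58283361404, -76047090525,
  134798985840, 104303048427, -315071234649, 309665824846, -189052314263, 75142273087,
  -17922732285, 1953886724]

/-- error (times `DD`) -/
def E : ℤ := 64

/-- test list -/
def n0 : List ℤ :=
  [33480783, -16800646531295263365, 6865622091277013475, 39556695022142649867,
  -11651212436292236916, -26967580345110687174, 4988933088638107347, 4250240151140254446,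
  -291703070972299662, -15057768538882845, 114883512045122025, -61226308286623980,
  -3562498485125487, 30127656209258934, -21922310729572281, 7448123739294117,
  -1038375514489284]

/-- test list -/
def n1 : List ℤ :=
  [0, 28888165452349440000, 23110532361879552000, -49270371077062656000, -41727350097838080000,
  12357715221282816000, 10592327332528128000]

/-- test list -/
def n2 : List ℤ :=
  [0, -14444082726174720000, -5135673858195456000, 24688682141220864000, 10089062996115456000,
  -7112956726738944000, -2063912140800000000]

/-- test list -/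
def n3 : List ℤ :=
  []

/-- weight list -/
def wt : List ℤ :=
  [34012224, 0, -68024448, 0, 34012224]

/-- factor -/
def fac : List ℤ := [183708, -122472, -238140, 115920, 54180, 6552, 252]

lemma e0 : eqL n0 (addL (smulL DD N.n0) (smulL (-1) (mulL B (dnL 531441 0 0 2 0 0)))) = true := by
  decide +kernel

lemma e1 : eqL n1 (smulL DD N.n1) = true := by
  decide +kernel

lemma e2 : eqL n2 (smulL DD N.n2) = true := by
  decide +kernel

lemma e3 : eqL n3 (smulL DD N.n3) = true := by
  decide +kernel

lemma e4 : eqL wt (smulL E (mulL (powZ 2) (dnL 531441 0 0 2 0 0))) = true := by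
  decide +kernel

lemma hv : vanT n1 n2 n3 [] [] 0 0 = true := by
  decide +kernel

lemma h0 : chkL05 n0 n1 n2 n3 wt 0 = true := by
  decide +kernel

lemma h6 : chkLp5 n0 n1 n2 n3 wt 0 6 1 2 128 = true := by
  decide +kernel

lemma h5 : chkLp5 n0 n1 n2 n3 wt 0 5 1 2 64 = true := by
  decide +kernel

lemma h4 : chkLp5 n0 n1 n2 n3 wt 0 4 1 2 32 = true := by
  decide +kernel

lemma h3 : chkLp5 n0 n1 n2 n3 wt 0 3 1 2 16 = true := by
  decide +kernel

lemma h2 : chkLp5 n0 n1 n2 n3 wt 0 2 1 2 8 = true := by
  decide +kernel

lemma r1 : chkN 2 1 4 4 (addL (rW5 n1 n2 n3 wt 0) (rM n0 n1 n2 n3 [] [] 0)) = true := by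
  decide +kernel

lemma r2 : chkN 2 1 4 4 (addL (rW5 n1 n2 n3 wt 0)
      (smulL (-1) (rM n0 n1 n2 n3 [] [] 0))) = true := by
  decide +kernel

lemma d0 : eqL r.n0 (mulL fac N.n0) = true := by
  decide +kernel

lemma d1 : eqL r.n1 (mulL fac N.n1) = true := by
  decide +kernel

lemma d2 : eqL r.n2 (mulL fac N.n2) = true := by
  decide +kernel

lemma d3 : eqL r.n3 (mulL fac N.n3) = true := by
  decide +kernel

lemma dd : eqL DnL (mulL fac (dnL 531441 0 0 2 0 0)) = true := by
  decide +kernel

theorem eq {T : ℝ} (h0 : 0 < T) (h1 : T < 1) :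
    G4 r T / ev DnL T = qf N 531441 0 0 2 0 0 T :=
  G4_div_eq (by norm_num) d0 d1 d2 d3 dd h0 h1

theorem bd {T : ℝ} (hT0 : 0 < T) (hT1 : T < 1) :
    |(DD : ℝ) * (G4 r T / ev DnL T) - ev B T| ≤ E * (1 - T) ^ 2 := by
  rw [eq hT0 hT1]
  exact qf_bd (by norm_num) e0 e1 e2 e3 e4 (q := 2) (by norm_num) (by norm_num) hv h0
    h6 h5 h4 h3 h2 r1 r2 hT0 hT1

end Vale.Agent.P224.S9.K36
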