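import Vale.Agent.P224.S9.Piv.Dn

/-!
Column function z 1 7 2 2 (m = 9): kernel-checked polynomial approximant on `(0, 1)`.
-/

namespace Vale.Agent.P224.S9.K37

open Vale.Agent.P224.SP Vale.Agent.P224.S9

/-- coefficient lists over `DnL` -/
def r : Q4 := ⟨
  [0, 0, -33748629264000, -4285540224000, 109043190144000, 15528469824000, -124747284816000,
  -20560925952000, 57159043200000, 11677018752000, -7505540784000, -2357437824000,
  -201083904000, -1584576000, 305424000],
  [0, 0, 57854793024000, 77139724032000, -111959738352000, -175627787328000, 43887106368000,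
  119157417792000, 16661580768000, -19990369728000, -6419492352000, -678984768000,
  -24249456000],
  [0, 0, -28927396512000, -25713241344000, 62943872040000, 57854793024000, -37405888128000,
  -38581619328000, 1849299984000, 6296996160000, 1535387616000, 143071488000, 4725000000],
  []⟩

/-- reduced coefficient lists -/
def N : Q4 := ⟨
  [0, 0, -61236000, -48600000, 86076000, 61200000, -25244000, -12600000, 404000],
  [0, 0, 104976000, 209952000, 72900000, -64152000, -32076000],
  [0, 0, -52488000, -81648000, -8262000, 26748000, 6250000],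
  []⟩

/-- approximant (times `DD`) -/
def B : List ℤ :=
  [6, -2339, -57334517925, 25477893487, 101924373609, -37941158204, -8686004336, -62663235998,
  22247059558, 59353971073, -78684531471, 54662190777, -23738925263, 6091982855, -709095829]

/-- error (times `DD`) -/
def E : ℤ := 7

/-- test list -/
def n0 : List ℤ :=
  [-1062882, 412221069, -3360129330766277241, -2659030190766274806, 4720495747546751274,
  3334401249716995353, -1392445188226348155, -672575313468879522, 42034121748815778,
  -7295773365373077, -11031026990365251, 7679836369744524, -1222478129088540,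
  -2351860809258582, 2172540618755154, -827948089174959, 125614198819863]

/-- test list -/
def n1 : List ℤ :=
  [0, 0, 5777633090469888000, 11555266180939776000, 4012245201715200000, -3530775777509376000,
  -1765387888754688000]

/-- test list -/
def n2 : List ℤ :=
  [0, 0, -2888816545234944000, -4493714625921024000, -454721122861056000, 1472147251789824000,
  343985356800000000]

/-- test list -/
def n3 : List ℤ :=
  []

/-- weight list -/
def wt : List ℤ :=
  [1240029, 1240029, -1240029, -1240029]

/-- factor -/
def fac : List ℤ := [551124, -367416, -714420, 347760, 162540, 19656, 756]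

lemma e0 : eqL n0 (addL (smulL DD N.n0) (smulL (-1) (mulL B (dnL 177147 0 0 2 0 0)))) = true := by
  decide +kernel

lemma e1 : eqL n1 (smulL DD N.n1) = true := by
  decide +kernel

lemma e2 : eqL n2 (smulL DD N.n2) = true := by
  decide +kernel

lemma e3 : eqL n3 (smulL DD N.n3) = true := by
  decide +kernel

lemma e4 : eqL wt (smulL E (mulL (powZ 1) (dnL 177147 0 0 2 0 0))) = true := by
  decide +kernel

lemma hv : vanT n1 n2 n3 [] [] 0 0 = true := by
  decide +kernel

lemma h0 : chkL05 n0 n1 n2 n3 wt 0 = true := by
  decide +kernel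

lemma h6 : chkLp5 n0 n1 n2 n3 wt 0 6 1 2 128 = true := by
  decide +kernel

lemma h5 : chkLp5 n0 n1 n2 n3 wt 0 5 1 2 64 = true := by
  decide +kernel

lemma h4 : chkLp5 n0 n1 n2 n3 wt 0 4 1 2 32 = true := by
  decide +kernel

lemma h3 : chkLp5 n0 n1 n2 n3 wt 0 3 1 2 16 = true := by
  decide +kernel

lemma h2 : chkLp5 n0 n1 n2 n3 wt 0 2 1 2 8 = true := by
  decide +kernel

lemma r1 : chkN 2 1 4 4 (addL (rW5 n1 n2 n3 wt 0) (rM n0 n1 n2 n3 [] [] 0)) = true := by
  decide +kernel

lemma r2 : chkN 2 1 4 4 (addL (rW5 n1 n2 n3 wt 0)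
      (smulL (-1) (rM n0 n1 n2 n3 [] [] 0))) = true := by
  decide +kernel

lemma d0 : eqL r.n0 (mulL fac N.n0) = true := by
  decide +kernel

lemma d1 : eqL r.n1 (mulL fac N.n1) = true := by
  decide +kernel

lemma d2 : eqL r.n2 (mulL fac N.n2) = true := by
  decide +kernel

lemma d3 : eqL r.n3 (mulL fac N.n3) = true := by
  decide +kernel

lemma dd : eqL DnL (mulL fac (dnL 177147 0 0 2 0 0)) = true := by
  decide +kernel

theorem eq {T : ℝ} (h0 : 0 < T) (h1 : T < 1) :
    G4 r T / ev DnL T = qf N 177147 0 0 2 0 0 T :=
  G4_div_eq (by norm_num) d0 d1 d2 d3 dd h0 h1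

theorem bd {T : ℝ} (hT0 : 0 < T) (hT1 : T < 1) :
    |(DD : ℝ) * (G4 r T / ev DnL T) - ev B T| ≤ E * (1 - T) ^ 1 := by
  rw [eq hT0 hT1]
  exact qf_bd (by norm_num) e0 e1 e2 e3 e4 (q := 2) (by norm_num) (by norm_num) hv h0
    h6 h5 h4 h3 h2 r1 r2 hT0 hT1

end Vale.Agent.P224.S9.K37
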