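import Vale.Agent.P224.S9.Piv.Dn

/-!
Column function z 3 7 3 0 (m = 9): kernel-checked polynomial approximant on `(0, 1)`.
-/

namespace Vale.Agent.P224.S9.K43

open Vale.Agent.P224.SP Vale.Agent.P224.S9

/-- coefficient lists over `DnL` -/
def r : Q4 := ⟨
  [0, 0, 1349945170560000, 171421608960000, -4361727605760000, -621138792960000,
  4989891392640000, 822437038080000, -2286361728000000, -467080750080000, 300221631360000,
  94297512960000, 8043356160000, 63383040000, -12216960000],
  [0, 0, -2314191720960000, -3085588961280000, 4478389534080000, 7025111493120000,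
  -1755484254720000, -4766296711680000, -666463230720000, 799614789120000, 256779694080000,
  27159390720000, 969978240000],
  [0, 0, 1157095860480000, 1028529653760000, -2517754881600000, -2314191720960000,
  1496235525120000, 1543264773120000, -73971999360000, -251879846400000, -61415504640000,
  -5722859520000, -189000000000],
  []⟩

/-- reduced coefficient lists -/
def N : Q4 := ⟨
  [0, 0, 2449440000, 1944000000, -3443040000, -2448000000, 1009760000, 504000000, -16160000],
  [0, 0, -4199040000, -8398080000, -2916000000, 2566080000, 1283040000],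
  [0, 0, 2099520000, 3265920000, 330480000, -1069920000, -250000000],
  []⟩

/-- approximant (times `DD`) -/
def B : List ℤ :=
  [-694, 236634, 2293373113627, -1018953701649, -4078804399250, 1530179093640, 291201641965,
  2679468650500, -1263601876651, -1801025379497, 2526536754107, -1721888587498, 720964639633,
  -177123627200, 19673442333]

/-- error (times `DD`) -/
def E : ℤ := 705

/-- test list -/
def n0 : List ℤ :=
  [122940018, -41673123162, 134405174526955971453, 106361181594619647867,
  -188819561881541231613, -133377650670111150177, 55703653815021555735, 26890081708882483710,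
  -1666470420228406158, 292072973157820953, 414367361066812086, -271063172248322193,
  34769665822156632, 80970870762972504, -68447975930834202, 24406736609670498,
  -3485091288963951]

/-- test list -/
def n1 : List ℤ :=
  [0, 0, -231105323618795520000, -462210647237591040000, -160489808068608000000,
  141231031100375040000, 70615515550187520000]

/-- test list -/
def n2 : List ℤ :=
  [0, 0, 115552661809397760000, 179748585036840960000, 18188844914442240000,
  -58885890071592960000, -13759414272000000000]

/-- test list -/
def n3 : List ℤ :=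
  []

/-- weight list -/
def wt : List ℤ :=
  [124888635, 0, -249777270, 0, 124888635]

/-- factor -/
def fac : List ℤ := [551124, -367416, -714420, 347760, 162540, 19656, 756]

lemma e0 : eqL n0 (addL (smulL DD N.n0) (smulL (-1) (mulL B (dnL 177147 0 0 2 0 0)))) = true := by
  decide +kernel

lemma e1 : eqL n1 (smulL DD N.n1) = true := by
  decide +kernel

lemma e2 : eqL n2 (smulL DD N.n2) = true := by
  decide +kernel

lemma e3 : eqL n3 (smulL DD N.n3) = true := by
  decide +kernel

lemma e4 : eqL wt (smulL E (mulL (powZ 2) (dnL 177147 0 0 2 0 0))) = true := by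
  decide +kernel

lemma hv : vanT n1 n2 n3 [] [] 0 0 = true := by
  decide +kernel

lemma h0 : chkL05 n0 n1 n2 n3 wt 0 = true := by
  decide +kernel

lemma h6 : chkLp5 n0 n1 n2 n3 wt 0 6 1 2 128 = true := by
  decide +kernel

lemma h5 : chkLp5 n0 n1 n2 n3 wt 0 5 1 2 64 = true := by
  decide +kernel

lemma h4 : chkLp5 n0 n1 n2 n3 wt 0 4 1 2 32 = true := by
  decide +kernel

lemma h3 : chkLp5 n0 n1 n2 n3 wt 0 3 1 2 16 = true := by
  decide +kernel

lemma h2 : chkLp5 n0 n1 n2 n3 wt 0 2 1 2 8 = true := by
  decide +kernel

lemma r1 : chkN 2 1 4 4 (addL (rW5 n1 n2 n3 wt 0) (rM n0 n1 n2 n3 [] [] 0)) = true := by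
  decide +kernel

lemma r2 : chkN 2 1 4 4 (addL (rW5 n1 n2 n3 wt 0)
      (smulL (-1) (rM n0 n1 n2 n3 [] [] 0))) = true := by
  decide +kernel

lemma d0 : eqL r.n0 (mulL fac N.n0) = true := by
  decide +kernel

lemma d1 : eqL r.n1 (mulL fac N.n1) = true := by
  decide +kernel

lemma d2 : eqL r.n2 (mulL fac N.n2) = true := by
  decide +kernel

lemma d3 : eqL r.n3 (mulL fac N.n3) = true := by
  decide +kernel

lemma dd : eqL DnL (mulL fac (dnL 177147 0 0 2 0 0)) = true := by
  decide +kernel

theorem eq {T : ℝ} (h0 : 0 < T) (h1 : T < 1) :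
    G4 r T / ev DnL T = qf N 177147 0 0 2 0 0 T :=
  G4_div_eq (by norm_num) d0 d1 d2 d3 dd h0 h1

theorem bd {T : ℝ} (hT0 : 0 < T) (hT1 : T < 1) :
    |(DD : ℝ) * (G4 r T / ev DnL T) - ev B T| ≤ E * (1 - T) ^ 2 := by
  rw [eq hT0 hT1]
  exact qf_bd (by norm_num) e0 e1 e2 e3 e4 (q := 2) (by norm_num) (by norm_num) hv h0
    h6 h5 h4 h3 h2 r1 r2 hT0 hT1

end Vale.Agent.P224.S9.K43
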